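import Vale.Agent.P148.R2.F.Arm
import Vale.Agent.P148.R2.H291.Env
import Vale.Agent.P148.R2.H291.EvW
import Vale.Agent.P148.R2.H291.Site
import Vale.Agent.P148.R2.N.Geo

/-!
# Row CAL: the arm bounds of the scene

`ArmLe T a r ω` : every arm from the disc of radius `a` to distance `r` has quenched probability at
most `ω`, for all centres in a disc and all domains which agree with the configuration in a larger
disc.  `exists_armLe` : for small `a` with high probability.  `exists_rho` : the parameters of the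
calibration.
-/

open Set Metric Filter
open _root_.P148
open Vale.Agent.P148.R2.H592 (nbr)
open Vale.Agent.P148.R2.H847 (qpr UArm)
open Vale.Agent.P148.R2.H566 (Ev)
open Vale.Agent.P148.R2.H291 (SiteOK)
open Vale.Agent.P148.R2.N (ms ms_pos)

universe u

namespace Vale.Agent.P148.R2.H530

/-- The uniform arm bound. -/
def ArmLe (T : Set Pt) (a r ω : ℝ) : Prop :=
  ∀ X N : Set ℂ, ∀ p : ℂ, X ∩ ball 0 4 = pts T ∩ ball 0 4 → N.Finite → N ⊆ X → ‖p‖ ≤ 5 / 2 →
    qpr N (fun W => UArm X W (closedBall p a) (ball p r)ᶜ) ≤ ω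

theorem ArmLe.mono {T : Set Pt} {a a' r ω : ℝ} (h : ArmLe T a r ω) (ha : a' ≤ a) :
    ArmLe T a' r ω := by
  intro X N p h1 h2 h3 h4
  refine le_trans ?_ (h X N p h1 h2 h3 h4)
  exact Vale.Agent.P148.R2.H847.qpr_mono h2 fun W _ hW => hW.mono (fun _ _ _ _ h => h) subset_rfl
    (closedBall_subset_closedBall ha) subset_rfl

theorem exists_armLe {r ω : ℝ} (hr : 0 < r) (hr1 : r ≤ 1 / 2) (hω : 0 < ω) :
    ∃ η > 0, Ev.{u} fun T => ArmLe T η r ω := by
  obtain ⟨η, hη, h1⟩ := H291.env_arm.{u} F.armStmt hr hω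
  refine ⟨η, hη, H291.ev_of_whp ((h1 (5 / 2)).mono fun m hm => ?_)⟩
  intro X N p hX hN hNX hp
  refine hm p (by rwa [mem_closedBall, dist_zero_right]) X N ?_ hN hNX
  have hsub : closedBall p (2 * r) ⊆ ball 0 4 := by
    intro z hz
    rw [mem_closedBall] at hz
    rw [mem_ball, dist_zero_right]
    have h2 := norm_le_norm_add_norm_sub p z
    rw [← dist_eq_norm, dist_comm] at h2
    linarith
  calc pts m.2 ∩ closedBall p (2 * r) = (pts m.2 ∩ ball 0 4) ∩ closedBall p (2 * r) := by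
        rw [inter_assoc, inter_eq_self_of_subset_right hsub]
    _ = X ∩ closedBall p (2 * r) := by
        rw [← hX, inter_assoc, inter_eq_self_of_subset_right hsub]

/-- **The parameter of the calibration.** -/
theorem exists_r0 {ω : ℝ} (hω : 0 < ω) {r₁ : ℝ} (hr₁ : 0 < r₁) :
    ∃ r₀, 0 < r₀ ∧ r₀ ≤ r₁ ∧ Ev.{u} fun T => ArmLe T (2 * r₀) (1 / 2) ω := by
  obtain ⟨η, hη, h1⟩ := exists_armLe.{u} (r := 1 / 2) (by norm_num) le_rfl hω
  refine ⟨min r₁ (η / 2), lt_min hr₁ (half_pos hη), min_le_left _ _, h1.mono fun T hT => ?_⟩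
  exact hT.mono (by have := min_le_right r₁ (η / 2); linarith)

theorem ms_small {a : ℝ} (ha : 0 < a) : ∀ᶠ M : ℕ in atTop, ms M ≤ a := by
  have h := (tendsto_one_div_atTop_nhds_zero_nat (𝕜 := ℝ)).eventually (eventually_le_nhds ha)
  exact h.mono fun M hM => hM

/-- **The parameters of the dichotomy.** -/
theorem exists_rho {ω : ℝ} (hω : 0 < ω) {ρ₁ : ℝ} (hρ₁ : 0 < ρ₁) (K : ℝ) :
    ∃ ρ, 0 < ρ ∧ ρ ≤ ρ₁ ∧ ∀ᶠ M : ℕ in atTop, Ev.{u} fun T =>
      ArmLe T (8 * ρ) (1 / 2) ω ∧ ArmLe T (2 * ρ) (1 / 2) ω ∧ ArmLe T (K * ms M) (ρ / 2) ω := by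
  obtain ⟨η, hη, h1⟩ := exists_armLe.{u} (r := 1 / 2) (by norm_num) le_rfl hω
  set ρ : ℝ := min (min ρ₁ (1 / 2)) (η / 8) with hρ
  have hρ0 : 0 < ρ := lt_min (lt_min hρ₁ (by norm_num)) (by positivity)
  have hρ1 : ρ ≤ ρ₁ := (min_le_left _ _).trans (min_le_left _ _)
  have hρ2 : ρ ≤ 1 / 2 := (min_le_left _ _).trans (min_le_right _ _)
  have hρ3 : ρ ≤ η / 8 := min_le_right _ _
  obtain ⟨η', hη', h2⟩ := exists_armLe.{u} (r := ρ / 2) (by positivity) (by linarith) hω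
  refine ⟨ρ, hρ0, hρ1, ?_⟩
  filter_upwards [ms_small (a := η' / (|K| + 1)) (by positivity), eventually_gt_atTop 0]
    with M hM hM0
  refine (h1.and h2).mono fun T hT => ⟨hT.1.mono (by linarith), hT.1.mono (by linarith),
    hT.2.mono ?_⟩
  have h3 : 0 < ms M := ms_pos hM0
  have h4 : (|K| + 1) * ms M ≤ η' := by
    rw [le_div_iff₀ (by positivity)] at hM
    linarith
  have h5 : K ≤ |K| + 1 := (le_abs_self K).trans (by linarith)
  nlinarith

/-- The edges near the ball. -/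
theorem edge_le {T : Set Pt} {s : ℝ} (h : SiteOK T 9 s) : ∀ x ∈ H291.site T 9,
    ∀ y ∈ H291.site T 9, nbr (H291.site T 9) x y → x ∈ closedBall (0 : ℂ) 3 →
      dist x y ≤ s / 4 := by
  intro x _ y _ hxy hx
  exact h.edge (closedBall_subset_closedBall (by norm_num) hx) hxy

end Vale.Agent.P148.R2.H530
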