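import Vale.Agent.P148.R2.H530.CalArm
import Vale.Agent.P148.R2.H530.CalArmEv
import Vale.Agent.P148.R2.H172.Sc6
import Vale.Agent.P148.R2.H959.CalPos

/-!
# Row CAL: the arm numbers of the scene

The arm bounds at the marks `gateC M (mk0 M 5)`, `gateC M (mk1 M 5)`, `gateC M (mk2 M 5)` of the
worlds of the scene, and the hypothesis `hbad` of the calibration.
-/

open Set Metric Filter
open _root_.P148
open Vale.Agent.P148.R2.H592 (nbr)
open Vale.Agent.P148.R2.H847 (qpr UArm)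
open Vale.Agent.P148.R2.H566 (W0 Ev)
open Vale.Agent.P148.R2.H291 (SiteOK)
open Vale.Agent.P148.R2.H953 (pr)
open Vale.Agent.P148.R2.H609 (TP piX)
open Vale.Agent.P148.R2.H251 (Three3 TC pi3 W3 ArcPos patt)
open Vale.Agent.P148.R2.H959 (mk0 mk1 mk2 mark0_pos mark1_pos mark2_pos)
open Vale.Agent.P148.R2.H172 (GoodT fscOf)
open Vale.Agent.P148.R2.N (ms ms_pos gateC M_mul_ms)

universe u

namespace Vale.Agent.P148.R2.H530

theorem ms_le_of {M k : ℕ} (hk : 0 < k) (hM : k ≤ M) : (k : ℝ) * ms M ≤ 1 := by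
  have h0 : 0 < M := hk.trans_le hM
  have h1 : (M : ℝ) * ms M = 1 := M_mul_ms h0
  have h2 : (k : ℝ) ≤ M := by exact_mod_cast hM
  have h3 := ms_pos h0
  nlinarith

/-- The marks are in the disc of the arm bounds. -/
theorem norm_mark {M : ℕ} (hM : 12 ≤ M) :
    ‖gateC M (mk0 M 5)‖ ≤ 5 / 2 ∧ ‖gateC M (mk1 M 5)‖ ≤ 5 / 2 ∧ ‖gateC M (mk2 M 5)‖ ≤ 5 / 2 := by
  have h0 : 0 < M := by omega
  have h1 := ms_le_of (k := 12) (by norm_num) hM
  have h2 := mark0_pos (m := 5) h0 (by omega)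
  have h3 := mark1_pos (m := 5) h0 (by omega)
  have h4 := mark2_pos (m := 5) h0 (by omega)
  have key : ∀ g k : ℂ, ‖g + (1 + Complex.I) - k‖ ≤ ((5 : ℕ) + 1) * ms M →
      ‖k - (1 + Complex.I)‖ ≤ 2 → ‖g‖ ≤ 5 / 2 := by
    intro g k ha hb
    have e1 : g = (g + (1 + Complex.I) - k) + (k - (1 + Complex.I)) := by ring
    rw [e1]
    have h5 := norm_add_le (g + (1 + Complex.I) - k) (k - (1 + Complex.I))
    push_cast at ha h1
    linarith
  have hn : ∀ k : ℂ, |(k - (1 + Complex.I)).re| ≤ 1 → |(k - (1 + Complex.I)).im| ≤ 1 →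
      ‖k - (1 + Complex.I)‖ ≤ 2 := by
    intro k ha hb
    have := Complex.norm_le_abs_re_add_abs_im (k - (1 + Complex.I))
    linarith
  refine ⟨key _ _ h2 (hn _ ?_ ?_), key _ _ h3 (hn _ ?_ ?_), key _ _ h4 (hn _ ?_ ?_)⟩ <;>
    norm_num

/-- **The arm bounds of the worlds of the scene.** -/
theorem ArmLe.scene {c : ℝ} {M : ℕ} {T : Set Pt} {a r ω : ℝ} (hA : ArmLe T a r ω)
    (h : GoodT c M T) (hM : 0 < M) (i : (H291.site T 9 → Bool) × (H291.site T 9 → Bool)) {g : ℂ}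
    (hg : ‖g‖ ≤ 5 / 2) :
    qpr (((fscOf hM h.site.hull).w i).X \ ((fscOf hM h.site.hull).w i).B)
      (fun W => UArm ((fscOf hM h.site.hull).w i).X W (closedBall g a) (ball g r)ᶜ) ≤ ω :=
  hA _ _ g (h.agree4 hM) (((fscOf hM h.site.hull).w i).hull.fin.subset sdiff_subset) sdiff_subset hg

/-- **`hbad`** for the worlds of the scene. -/
theorem hbad_sc {T : Set Pt} {M : ℕ} (hS : SiteOK T 9 (ms M / 1000)) (hM : 120 ≤ M) {w : W0}
    (hX : w.X = H291.site T 9) [Fintype w.X] [Fintype w.D] {x₀ : w.X} {col : w.X → Bool}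
    {c : ℕ → w.D} {n s₁ s₂ : ℕ} {O3 : Fin 3 → Set ℂ} {h3 : Three3 w.X w.B O3}
    (hW : W3 (TP w x₀) (TC w.hull h3) (piX w) w.O col c n s₁ s₂
      (fun j => {v : w.X | v.1 ∈ O3 j}) (pi3 w.X O3) Sum.inl)
    (hp : ArcPos (TP w x₀) c n s₁ s₂ (fun v => v.1 + (1 + Complex.I)) 2 (((5 : ℕ) + 1) * ms M))
    {r ω : ℝ} (hr1 : r ≤ 1) (hr : 30 * ms M ≤ r) (hA : ArmLe T (2 * r) (1 / 2) ω) :
    (pr fun s : w.X → Bool => ∃ g, (TC w.hull h3).Rel (patt w.X O3 2 s)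
      ((TC w.hull h3).nxt (c (s₁ - 1))) g ∧ g ≠ (TC w.hull h3).nxt (c (s₁ - 1)) ∧
      (TC w.hull h3).src g = Sum.inl 1 ∧
      ((((TP w x₀).src g : w.X) : ℂ) + (1 + Complex.I)).re < r) ≤ ω := by
  have h0 : 0 < M := by omega
  have h1 := ms_pos h0
  have h2 := ms_le_of (k := 120) (by norm_num) hM
  have h4 := mark0_pos (m := 5) h0 (by omega)
  rw [sub_zero] at h4
  push_cast at hp h2 h4
  refine hbad_le (h := w.hull) (h3 := h3) hW (pos := fun v => v.1 + (1 + Complex.I))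
    (fun _ => rfl) (e := ms M / 1000 / 4) hp ?_ (by linarith) (by linarith) (by linarith)
    (by linarith) hr1 (k := gateC M (mk0 M 5)) h4 (R := 2 * r) (by linarith) ?_
  · rw [hX]
    exact edge_le hS
  · refine hA _ _ _ ?_ (w.hull.fin.subset sdiff_subset) sdiff_subset (norm_mark (by omega)).1
    rw [hX]
    exact hS.agree (ball_subset_ball (by norm_num))

end Vale.Agent.P148.R2.H530
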