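import Vale.Agent.P148.R2.H953.ArmP
import Vale.Agent.P148.R2.H897.CalDet
import Vale.Agent.P148.R2.H251.W3h
import Vale.Agent.P148.R2.H565.Loc12

/-!
# Row CAL: arms of the patterns

`arm_pr` : the probability, over the fresh colours, of a free path of a given colour of the world
with the pattern `patt γ` is at most the probability of an arm.  `hbad_le` : the hypothesis `hbad`
of `H251.cal3_patt`.
-/

open Set Metric Function Relation Complex
open Vale.Agent.P148.R2.H258 Vale.Agent.P148.R2.H258.Tri Vale.Agent.P148.R2.H659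
  Vale.Agent.P148.R2.H871 Vale.Agent.P148.R2.H953 Vale.Agent.P148.R2.H592
  Vale.Agent.P148.R2.H251 Vale.Agent.P148.R2.H897
open Vale.Agent.P148.R2.H847 (qpr UArm)
open Vale.Agent.P148.R2.H838 (Joined)
open Vale.Agent.P148.R2.H400 (TP piB piB_eq_iff nbr_dt)

namespace Vale.Agent.P148.R2.H530

variable {X : Set ℂ} {b : ZMod 3 → ℂ} (h : HullTri X b) (x₀ : X) {B : Set ℂ}
  {O3 : Fin 3 → Set ℂ} (h3 : Three3 X B O3)

/-- The probability of a free path of colour `c` of the plane from a site in `A` to a site in `B'`,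
for the fresh colours. -/
theorem arm_pr0 [Fintype X] (c : Bool) {A B' : Set ℂ} {p : (X → Bool) → Prop}
    (hp : ∀ s, p s → ∃ u v : X, Joined (TP h x₀) s c {v : X | v.1 ∉ B} u v ∧ u.1 ∈ A ∧
      v.1 ∈ B') : pr p ≤ qpr (X \ B) (fun W => UArm X W A B') :=
  pr_joined_le (T := TP h x₀) (π3 := fun x => x) (f := idmap X x₀) (fun e => nbr_dt h x₀ e)
    (fun x => H565.idmap_coe x₀ x) (h.fin.subset sdiff_subset)
    (fun _ hx _ hy hxy => H565.idmap_inj x₀ hx.1 hy.1 hxy) c (fun v hv => ⟨v.2, hv⟩) hp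

include h3 in
/-- A free path of the pattern is a free path of the fresh colours. -/
theorem joined_patt {γ : Fin 3} {s : X → Bool} {c : Bool} {u v : X}
    (hj : Joined (TP h x₀) (fun x => patt X O3 γ s (pi3 X O3 x)) c {v | piB X B v ≠ Sum.inl ()}
      u v) : Joined (TP h x₀) s c {v : X | v.1 ∉ B} u v :=
  (hj.congr (σ' := s) fun _ hv => (patt_free' h3 γ s hv).symm).mono
    fun _ hv hb => hv (piB_eq_iff.2 hb)

include h3 in
/-- **The probability of a free path of the pattern is at most the probability of an arm.** -/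
theorem arm_pr [Fintype X] (γ : Fin 3) (c : Bool) {A B' : Set ℂ} {p : (X → Bool) → Prop}
    (hp : ∀ s, p s → ∃ u v : X, Joined (TP h x₀) (fun x => patt X O3 γ s (pi3 X O3 x)) c
      {v | piB X B v ≠ Sum.inl ()} u v ∧ u.1 ∈ A ∧ v.1 ∈ B') :
    pr p ≤ qpr (X \ B) (fun W => UArm X W A B') := by
  refine arm_pr0 h x₀ c fun s hs => ?_
  obtain ⟨u, v, h1, h2, h4⟩ := hp s hs
  exact ⟨u, v, joined_patt h x₀ h3 h1, h2, h4⟩

variable {x₀ h h3} {w : X → Bool} {c : ℕ → Fc X b × ZMod 3} {n s₁ s₂ : ℕ}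

theorem norm_le_re_add_im (z : ℂ) {a a' : ℝ} (h1 : |z.re| ≤ a) (h2 : |z.im| ≤ a') :
    ‖z‖ ≤ a + a' := (Complex.norm_le_abs_re_add_abs_im z).trans (add_le_add h1 h2)

/-- **`hbad`** of `H251.cal3_patt`: the first source of the class of `nxt o` for the pattern `2` is
not near the first mark. -/
theorem hbad_le [Fintype X] [Fintype (Fc X b × ZMod 3)]
    (hW : W3 (TP h x₀) (TC h h3) (piB X B) (Sum.inl ()) w c n s₁ s₂
      (fun j => {v : X | v.1 ∈ O3 j}) (pi3 X O3) Sum.inl)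
    {pos : X → ℂ} (hpos : ∀ v, pos v = v.1 + (1 + I)) {δ e r R om : ℝ}
    (hp : ArcPos (TP h x₀) c n s₁ s₂ pos 2 δ)
    (hedge : ∀ x ∈ X, ∀ y ∈ X, nbr X x y → x ∈ closedBall (0 : ℂ) 3 → dist x y ≤ e)
    (he : e ≤ 1 / 20) (hδ : 0 ≤ δ) (hδ1 : δ ≤ 1 / 20) (hr : 0 ≤ r) (hr1 : r ≤ 1)
    {k : ℂ} (hk : ‖k + (1 + I)‖ ≤ δ) (hR : r + 3 * δ + e ≤ R)
    (hom : qpr (X \ B) (fun W => UArm X W (closedBall k R) (ball k (1 / 2))ᶜ) ≤ om) :
    (pr fun s : X → Bool => ∃ g, (TC h h3).Rel (patt X O3 2 s) ((TC h h3).nxt (c (s₁ - 1))) g ∧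
      g ≠ (TC h h3).nxt (c (s₁ - 1)) ∧ (TC h h3).src g = Sum.inl 1 ∧
      (pos ((TP h x₀).src g)).re < r) ≤ om := by
  refine le_trans ?_ hom
  refine arm_pr h x₀ h3 2 false fun s hs => ?_
  obtain ⟨g, hg, hgne, hg1, hgr⟩ := hs
  obtain ⟨a1, a2, a3⟩ := hW.o_corners
  set q := (TC h h3).nxt (c (s₁ - 1)) with hqd
  have hq : (TC h h3).InFace (c (s₁ - 1)) q := Or.inr (Or.inl rfl)
  have ha : (TP h x₀).src q ∈ (fun j : Fin 3 => {v : X | v.1 ∈ O3 j}) 0 := by
    have : (TP h x₀).src q = (TP h x₀).tgt (c (s₁ - 1)) := (TP h x₀).src_nxt' _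
    rw [this]; exact a2
  have hb : (TP h x₀).apex q ∈ (fun j : Fin 3 => {v : X | v.1 ∈ O3 j}) 1 := by
    have : (TP h x₀).apex q = (TP h x₀).src (c (s₁ - 1)) := (TP h x₀).apex_nxt _
    rw [this]; exact a1
  have hc : (TP h x₀).tgt q ∈ (fun j : Fin 3 => {v : X | v.1 ∈ O3 j}) 2 := by
    have : (TP h x₀).tgt q = (TP h x₀).apex (c (s₁ - 1)) := (TP h x₀).tgt_nxt _
    rw [this]; exact a3
  obtain ⟨m, f, j₁, i₁, hP⟩ := hW.exists_path hq hg.1 ha hb hc
  obtain ⟨i, hi, hgi⟩ := (hP.rel g).1 hg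
  have hf1 : (TC h h3).src (f 1) = Sum.inl 1 := by
    have h1 := hP.next3 0 (by have := hP.two; omega)
    rw [hP.zero] at h1
    rw [h1]
    exact hW.apex3 hb
  have hi1 : i = 1 := hP.inj3 i hi 1 (by have := hP.two; omega) (by rw [← hgi, hg1, hf1])
  subst hi1
  rw [hgi] at hgr
  obtain ⟨i', hi', hi2, hreach⟩ := reach3 hW hq ha hb hc hP
  -- positions
  have hb1 : BotP 2 δ (pos ((TP h x₀).src (f 1))) := by
    rw [hP.start]
    rcases hP.ai with ⟨-, h1⟩ | ⟨h1, -⟩ | ⟨h1, -⟩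
    · exact hp.1 _ h1
    · exact absurd h1 (by decide)
    · exact absurd h1 (by decide)
  have hb2 : RigP 2 δ (pos ((TP h x₀).src (c i'))) := by
    rcases hi2 with ⟨h1, -⟩ | ⟨-, h1, h2⟩ | ⟨h1, -⟩
    · exact absurd h1 (by decide)
    · exact hp.2.1 _ h1 h2
    · exact absurd h1 (by decide)
  obtain ⟨b1, b2, b3, b4⟩ := hb1
  obtain ⟨d1, d2, d3, d4⟩ := hb2
  set x := (TP h x₀).src (f 1) with hx
  set y := (TP h x₀).src (c i') with hy
  have hadd : ∀ v : X, (pos v).re = (v : ℂ).re + 1 ∧ (pos v).im = (v : ℂ).im + 1 := by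
    intro v
    rw [hpos]
    simp
  rw [(hadd x).1] at b1 b2 hgr
  rw [(hadd x).2] at b3 b4
  rw [(hadd y).1] at d1 d2
  rw [(hadd y).2] at d3 d4
  have hx3 : (x : ℂ) ∈ closedBall (0 : ℂ) 3 := by
    rw [mem_closedBall, dist_zero_right]
    refine (norm_le_re_add_im _ (a := 3 / 2) (a' := 3 / 2) ?_ ?_).trans (by norm_num)
    · rw [abs_le]; constructor <;> linarith
    · rw [abs_le]; constructor <;> linarith
  have hy3 : (y : ℂ) ∈ closedBall (0 : ℂ) 3 := by
    rw [mem_closedBall, dist_zero_right]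
    refine (norm_le_re_add_im _ (a := 3 / 2) (a' := 3 / 2) ?_ ?_).trans (by norm_num)
    · rw [abs_le]; constructor <;> linarith
    · rw [abs_le]; constructor <;> linarith
  have hxt : dist (x : ℂ) ((TP h x₀).tgt (f 1) : X) ≤ e :=
    hedge _ x.2 _ ((TP h x₀).tgt (f 1)).2 (nbr_dt h x₀ (f 1)) hx3
  have hk' : |k.re + 1| ≤ δ ∧ |k.im + 1| ≤ δ := by
    constructor
    · refine (Complex.abs_re_le_norm (k + (1 + I))).trans' (le_of_eq ?_) |>.trans hk
      simp
    · refine (Complex.abs_im_le_norm (k + (1 + I))).trans' (le_of_eq ?_) |>.trans hk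
      simp
  obtain ⟨⟨k1, k2⟩, ⟨k3, k4⟩⟩ := And.intro (abs_le.1 hk'.1) (abs_le.1 hk'.2)
  have hxk : dist (x : ℂ) k ≤ r + 3 * δ := by
    have e1 : (x : ℂ) - k = (x + (1 + I)) - (k + (1 + I)) := by ring
    rw [dist_eq_norm, e1]
    have h5 : ‖(x : ℂ) + (1 + I)‖ ≤ (r + δ) + δ := by
      refine norm_le_re_add_im _ ?_ ?_
      · have : ((x : ℂ) + (1 + I)).re = (x : ℂ).re + 1 := by simp
        rw [this, abs_le]
        constructor <;> linarith
      · have : ((x : ℂ) + (1 + I)).im = (x : ℂ).im + 1 := by simp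
        rw [this, abs_le]
        constructor <;> linarith
    have := norm_sub_le ((x : ℂ) + (1 + I)) (k + (1 + I))
    linarith
  rcases hreach with hreach | ⟨u, ⟨e', he1, he2⟩, hj⟩
  · exfalso
    rw [hreach] at hxt
    have h6 : |((x : ℂ) - y).re| ≤ e := (Complex.abs_re_le_norm _).trans (by
      rwa [← dist_eq_norm])
    rw [Complex.sub_re, abs_le] at h6
    linarith [h6.1]
  · refine ⟨_, _, hj.symm, ?_, ?_⟩
    · rw [mem_closedBall]
      have := dist_triangle_left ((TP h x₀).tgt (f 1) : ℂ) k (x : ℂ)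
      linarith
    · have hyu : dist (y : ℂ) u ≤ e := by
        have := hedge _ ((TP h x₀).src e').2 _ ((TP h x₀).tgt e').2 (nbr_dt h x₀ e')
        rw [he1, he2] at this
        exact this hy3
      intro hu
      rw [mem_ball] at hu
      have h6 : |((y : ℂ) - u).re| ≤ e := (Complex.abs_re_le_norm _).trans (by
        rwa [← dist_eq_norm])
      have h7 : |((u : ℂ) - k).re| ≤ 1 / 2 := ((Complex.abs_re_le_norm _).trans (by
        rw [← dist_eq_norm]; exact hu.le))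
      rw [Complex.sub_re, abs_le] at h6 h7
      linarith [h6.2, h7.2]

end Vale.Agent.P148.R2.H530
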